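import Vale.Agent.P153.F.Dom.In
import Vale.Agent.P153.GFF.WBounds

/-!
P153-F, leaf D4: the field `fld` versus sums over the lattice.
-/

namespace Vale.Agent.P153.F.Dom

open Finset Filter Topology MeasureTheory
open Vale.Agent.P153.F.Top Vale.Agent.P145.PT

/-- Constants of a test function. -/
theorem fd930_csts {D : Set (ℝ × ℝ)} {f : ℝ × ℝ → ℝ} (hf : TestOn D f) : ∃ K, GFF.Csts f K := by
  obtain ⟨h1, h2, -⟩ := hf
  have hc : Continuous f := h1.continuous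
  obtain ⟨B, hB⟩ := hc.bounded_above_of_compact_support h2
  obtain ⟨C, hC⟩ := h1.lipschitzWith_of_hasCompactSupport h2 (by simp)
  obtain ⟨M, hM0, hM⟩ := GFF.second_diff (by exact_mod_cast contDiff_infty.1 h1 2) h2
  obtain ⟨R, hR⟩ := h2.isCompact.isBounded.subset_closedBall (0 : ℝ × ℝ)
  have hBn : 0 ≤ B := (norm_nonneg _).trans (hB 0)
  have hCn : (0 : ℝ) ≤ C := C.2
  refine ⟨1 + |R| + B + C + M, by positivity, hc, h2, ?_, ?_, ?_, ?_⟩
  · intro z hz
    by_contra hne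
    have h4 : z ∈ tsupport f := subset_tsupport _ hne
    have h5 := hR h4
    rw [mem_closedBall_zero_iff, Prod.norm_def, sup_le_iff, Real.norm_eq_abs, Real.norm_eq_abs] at h5
    have := le_abs_self R
    rcases hz with h | h <;> linarith [h5.1, h5.2]
  · intro z
    have := hB z
    rw [Real.norm_eq_abs] at this
    have := abs_nonneg R
    linarith
  · intro x y
    have h4 := hC.dist_le_mul x y
    rw [Real.dist_eq, dist_eq_norm] at h4
    refine h4.trans (mul_le_mul_of_nonneg_right ?_ (norm_nonneg _))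
    have := abs_nonneg R
    linarith
  · intro x y
    refine (hM x y).trans (mul_le_mul_of_nonneg_right ?_ (by positivity))
    have := abs_nonneg R
    linarith

theorem fd930_dp (δ : ℝ) (v : ℤ × ℤ) : dp δ v = δ • GFF.pos v := by
  unfold dp GFF.pos
  rw [Prod.smul_mk, smul_eq_mul, smul_eq_mul, mul_comm (√3 / 2)]

/-- Membership in `Vs`. -/
theorem fd930_mem {δ : ℝ} (hδ : 0 < δ) {D : Set (ℝ × ℝ)} (hD : Bornology.IsBounded D) {v : ℤ × ℤ}
    (hv : Metric.closedBall (dp δ v) (2 * δ) ⊆ D) : v ∈ Vs δ D := by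
  obtain ⟨M, hM⟩ := hD.subset_closedBall (0 : ℝ × ℝ)
  have hfin : {v : ℤ × ℤ | Metric.closedBall (dp δ v) (2 * δ) ⊆ D}.Finite := by
    refine (Finset.finite_toSet ((Finset.Icc (-⌈2 * |M| / δ⌉) ⌈2 * |M| / δ⌉) ×ˢ
      (Finset.Icc (-⌈2 * |M| / δ⌉) ⌈2 * |M| / δ⌉))).subset fun u hu => ?_
    have h1 : dp δ u ∈ Metric.closedBall (0 : ℝ × ℝ) M :=
      hM (hu (Metric.mem_closedBall_self (by positivity)))
    rw [mem_closedBall_zero_iff, Prod.norm_def, sup_le_iff, Real.norm_eq_abs, Real.norm_eq_abs] at h1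
    obtain ⟨h2, h3⟩ := h1
    unfold dp at h2 h3
    simp only at h2 h3
    rw [abs_mul, abs_of_pos hδ] at h2 h3
    have hMM := le_abs_self M
    have h5 : (1 : ℝ) ≤ √3 := by
      rw [Real.one_le_sqrt]
      norm_num
    have h4 : |(u.2 : ℝ)| ≤ 2 * |M| / δ := by
      rw [le_div_iff₀ hδ]
      rw [abs_mul, abs_of_pos (by positivity : (0 : ℝ) < √3 / 2)] at h3
      have h6 : 0 ≤ δ * |(u.2 : ℝ)| := by positivity
      nlinarith
    have h7 : |(u.1 : ℝ)| ≤ 2 * |M| / δ := by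
      have h8 : |(u.1 : ℝ) + u.2 / 2| ≤ |M| / δ := by
        rw [le_div_iff₀ hδ]
        linarith
      have h9 : |(u.1 : ℝ)| ≤ |(u.1 : ℝ) + u.2 / 2| + |(u.2 : ℝ) / 2| := by
        have := abs_sub ((u.1 : ℝ) + u.2 / 2) ((u.2 : ℝ) / 2)
        rw [add_sub_cancel_right] at this
        exact this
      rw [abs_div, abs_of_pos (by norm_num : (0 : ℝ) < 2)] at h9
      have h10 : 2 * |M| / δ = |M| / δ + |M| / δ := by ring
      have h11 : |(u.2 : ℝ)| / 2 ≤ |M| / δ := by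
        rw [h10] at h4
        linarith
      linarith
    have hc := Int.le_ceil (2 * |M| / δ)
    rw [abs_le] at h4 h7
    rw [Finset.mem_coe, Finset.mem_product, Finset.mem_Icc, Finset.mem_Icc]
    refine ⟨⟨?_, ?_⟩, ?_, ?_⟩
    · have : (-(⌈2 * |M| / δ⌉ : ℝ)) ≤ u.1 := by linarith
      exact_mod_cast this
    · have : (u.1 : ℝ) ≤ ⌈2 * |M| / δ⌉ := by linarith
      exact_mod_cast this
    · have : (-(⌈2 * |M| / δ⌉ : ℝ)) ≤ u.2 := by linarith
      exact_mod_cast this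
    · have : (u.2 : ℝ) ≤ ⌈2 * |M| / δ⌉ := by linarith
      exact_mod_cast this
  unfold Vs
  rw [dif_pos hfin, Set.Finite.mem_toFinset]
  exact hv

theorem fd930_ball {φ : ℝ × ℝ → ℝ} {δ r : ℝ} (h4 : 4 * δ ≤ r) {v : ℤ × ℤ} {z : ℝ × ℝ}
    (hz : z ∈ tsupport φ) (hd : dist (dp δ v) z ≤ 2 * δ) :
    Metric.closedBall (dp δ v) (2 * δ) ⊆ Metric.cthickening r (tsupport φ) := by
  intro x hx
  refine Metric.mem_cthickening_of_dist_le x z r _ hz ?_
  have h1 := dist_triangle x (dp δ v) z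
  rw [Metric.mem_closedBall] at hx
  linarith

theorem fd930_wt {φ : ℝ × ℝ → ℝ} {δ : ℝ} (hδ : 0 < δ) {v : ℤ × ℤ} (h : GFF.wt δ φ v ≠ 0) :
    ∃ z ∈ tsupport φ, dist (dp δ v) z ≤ 2 * δ := by
  obtain ⟨u, hu⟩ : ∃ u : ℝ × ℝ, GFF.ker u * φ (δ • (u + GFF.pos v)) ≠ 0 := by
    by_contra hn
    push Not at hn
    refine h ?_
    unfold GFF.wt
    simp_rw [hn]
    simp
  have hk : GFF.ker u ≠ 0 := left_ne_zero_of_mul hu
  have hf : φ (δ • (u + GFF.pos v)) ≠ 0 := right_ne_zero_of_mul hu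
  have h1 : ¬(2 < |u.1| ∨ 1 < |u.2|) := fun h => hk (GFF.ker_eq_zero h)
  rw [not_or, not_lt, not_lt] at h1
  refine ⟨_, subset_tsupport _ hf, ?_⟩
  rw [fd930_dp, dist_eq_norm, ← smul_sub, sub_add_cancel_right, smul_neg, norm_neg, norm_smul,
    Real.norm_eq_abs, abs_of_pos hδ, mul_comm]
  refine mul_le_mul_of_nonneg_right ?_ hδ.le
  rw [Prod.norm_def, sup_le_iff, Real.norm_eq_abs, Real.norm_eq_abs]
  exact ⟨h1.1, by linarith [h1.2]⟩

/-- Leaf D4 for open domains. -/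
def S_fldO : Prop := ∀ D : Set (ℝ × ℝ), IsOpen D → ∀ (δ : ℕ → ℝ) (N : ℕ → ℕ) (p : ∀ n, ZMod (N n) → ℤ × ℤ)
  (S : ℕ → Finset ((ℤ × ℤ) × Bool)), Approx D δ N p S → ∀ φ : ℝ × ℝ → ℝ, TestOn D φ →
    ∃ (C : ℝ) (K : Set (ℝ × ℝ)) (w : ℕ → ℤ × ℤ → ℝ), IsCompact K ∧ K ⊆ D ∧ ∀ᶠ n in atTop,
      (∀ v, w n v ≠ 0 → v ∈ inner (p n) (S n) ∧ dp (δ n) v ∈ K) ∧
      (∀ v, |w n v - δ n ^ 2 * tl φ (δ n * v.1, δ n * v.2)| ≤ C * δ n ^ 3) ∧
      (∀ v, φ (dp (δ n) v) ≠ 0 → v ∈ inner (p n) (S n)) ∧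
      ∀ h : ℤ × ℤ → ℤ, fld (S n) (δ n) φ h = ∑ v ∈ inner (p n) (S n), w n v * (h v : ℝ)

/-- Leaf D4 from leaf D2. -/
theorem s_fld_of (hin : S_in) : S_fldO := by
  intro D hD δ N p S hA φ hφ
  obtain ⟨K, hK⟩ := fd930_csts hφ
  obtain ⟨r, hr, hrD⟩ := (hK.supp.isCompact).exists_cthickening_subset_open hD hφ.2.2
  have hbd : Bornology.IsBounded (Metric.cthickening r (tsupport φ)) :=
    (hK.supp.isCompact.isBounded).cthickening
  have hin' := hin D δ N p S hA (Metric.cthickening r (tsupport φ)) hbd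
    (by rw [Metric.isClosed_cthickening.closure_eq]; exact hrD)
  have hreg := hA.cpt (tsupport φ) hφ.2.2 hK.supp.isCompact
  have hsm : ∀ᶠ n in atTop, δ n < r / 4 := hA.lim.eventually_lt_const (by positivity)
  refine ⟨2 * K, Metric.cthickening r (tsupport φ), fun n v => GFF.wt (δ n) φ v,
    hK.supp.isCompact.cthickening, hrD, ?_⟩
  filter_upwards [hin', hreg, hsm] with n h1 h2 h3
  have hδ := hA.pos n
  have h4 : 4 * δ n ≤ r := by linarith
  have hsup : ∀ v, GFF.wt (δ n) φ v ≠ 0 → v ∈ inner (p n) (S n) ∧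
      dp (δ n) v ∈ Metric.cthickening r (tsupport φ) := by
    intro v hv
    obtain ⟨z, hz, hd⟩ := fd930_wt hδ hv
    have h5 := fd930_ball h4 hz hd
    exact ⟨h1 (fd930_mem hδ hbd h5), h5 (Metric.mem_closedBall_self (by positivity))⟩
  refine ⟨hsup, ?_, ?_, ?_⟩
  · intro v
    have h5 := GFF.wt_close hK hδ v (dp (δ n) v) 0 (by rw [fd930_dp, sub_self, norm_zero])
    rw [add_zero] at h5
    have h6 : tl φ (δ n * v.1, δ n * v.2) = √3 / 2 * φ (dp (δ n) v) := by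
      unfold tl dp
      congr 2
      refine Prod.ext ?_ ?_
      · show δ n * (v.1 : ℝ) + δ n * v.2 / 2 = δ n * (v.1 + v.2 / 2)
        ring
      · show √3 / 2 * (δ n * (v.2 : ℝ)) = δ n * (√3 / 2 * v.2)
        ring
    rw [h6]
    have h7 : GFF.wt (δ n) φ v - δ n ^ 2 * (√3 / 2 * φ (dp (δ n) v)) =
        δ n ^ 2 * (GFF.wt (δ n) φ v / δ n ^ 2 - √3 / 2 * φ (dp (δ n) v)) := by
      rw [mul_sub, mul_div_cancel₀ _ (by positivity)]
    rw [h7, abs_mul, abs_of_pos (by positivity : (0 : ℝ) < δ n ^ 2)]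
    refine (mul_le_mul_of_nonneg_left h5 (by positivity)).trans (le_of_eq ?_)
    ring
  · intro v hv
    have h5 : dp (δ n) v ∈ tsupport φ := subset_tsupport _ hv
    exact h1 (fd930_mem hδ hbd (fd930_ball h4 h5 (by rw [dist_self]; positivity)))
  · intro h
    have h5 : fld (S n) (δ n) φ h = GFF.smear h (δ n) φ := by
      unfold fld GFF.smear
      congr 1
      funext z
      by_cases hz : φ z = 0
      · rw [hz, mul_zero, mul_zero]
      · rw [if_pos (h2 (subset_tsupport _ hz))]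
    rw [h5, GFF.smear_eq_sum hδ hK.pos.le hK.cont hK.supp hK.zero h]
    have e1 : ∑ v ∈ GFF.box (δ n) K, (h v : ℝ) * GFF.wt (δ n) φ v =
        ∑ v ∈ GFF.box (δ n) K ∪ inner (p n) (S n), (h v : ℝ) * GFF.wt (δ n) φ v := by
      refine Finset.sum_subset Finset.subset_union_left fun v _ hv => ?_
      rw [GFF.wt_zero_of_box hδ hK.pos.le hK.zero hv, mul_zero]
    have e2 : ∑ v ∈ inner (p n) (S n), GFF.wt (δ n) φ v * (h v : ℝ) =
        ∑ v ∈ GFF.box (δ n) K ∪ inner (p n) (S n), (h v : ℝ) * GFF.wt (δ n) φ v := by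
      have e3 : ∑ v ∈ inner (p n) (S n), GFF.wt (δ n) φ v * (h v : ℝ) =
          ∑ v ∈ inner (p n) (S n), (h v : ℝ) * GFF.wt (δ n) φ v :=
        Finset.sum_congr rfl fun v _ => mul_comm _ _
      rw [e3]
      refine Finset.sum_subset Finset.subset_union_right fun v _ hv => ?_
      have : GFF.wt (δ n) φ v = 0 := by
        by_contra hne
        exact hv (hsup v hne).1
      rw [this, mul_zero]
    rw [e1, e2]

/-- A Jordan domain is open. -/
theorem fd930_open {D : Set (ℝ × ℝ)} (hD : JordanDomain D) : IsOpen D := by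
  obtain ⟨Φ, rfl⟩ := hD
  refine Φ.isOpenMap _ (isOpen_lt ?_ continuous_const)
  fun_prop

/-- Leaf D4 for open domains. -/
theorem s_fldO : S_fldO := s_fld_of s_in

end Vale.Agent.P153.F.Dom
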