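import Vale.Agent.P153.F.Dom.Stmt

/-!
P153-F, leaf D2: inner inclusion.
-/

namespace Vale.Agent.P153.F.Dom

open Finset Filter Topology MeasureTheory
open Vale.Agent.P153.F.Top Vale.Agent.P145.PT

/-- offset of the centre of a triangle -/
private noncomputable def dinO (b : Bool) : ℝ := if b then 2 / 3 else 1 / 3

/-- the centre of a triangle of the lattice of mesh `δ` -/
private noncomputable def dinC (δ : ℝ) (t : (ℤ × ℤ) × Bool) : ℝ × ℝ :=
  (δ * ((t.1.1 + dinO t.2) + (t.1.2 + dinO t.2) / 2), δ * (√3 / 2 * (t.1.2 + dinO t.2)))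

private theorem din_sqrt_pos : (0 : ℝ) < √3 := Real.sqrt_pos.2 (by norm_num)

private theorem din_c1 (δ : ℝ) (t : (ℤ × ℤ) × Bool) :
    c1 (dinC δ t) = δ * (t.1.1 + dinO t.2) := by
  have := din_sqrt_pos.ne'
  unfold c1 dinC
  field_simp
  ring

private theorem din_c2 (δ : ℝ) (t : (ℤ × ℤ) × Bool) :
    c2 (dinC δ t) = δ * (t.1.2 + dinO t.2) := by
  have := din_sqrt_pos.ne'
  unfold c2 dinC
  field_simp

private theorem din_c1_pt (δ : ℝ) (v : ℤ × ℤ) : c1 (δ • pt v) = δ * v.1 := by
  have := din_sqrt_pos.ne'
  unfold c1 pt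
  simp only [Prod.smul_mk, smul_eq_mul]
  field_simp
  ring

private theorem din_c2_pt (δ : ℝ) (v : ℤ × ℤ) : c2 (δ • pt v) = δ * v.2 := by
  have := din_sqrt_pos.ne'
  unfold c2 pt
  simp only [Prod.smul_mk, smul_eq_mul]
  field_simp

private theorem din_convex (a b c : ℝ) :
    Convex ℝ {z : ℝ × ℝ | a * c1 z + b * c2 z ≤ c} := by
  intro x hx y hy s t hs ht hst
  change a * c1 x + b * c2 x ≤ c at hx
  change a * c1 y + b * c2 y ≤ c at hy
  change a * c1 (s • x + t • y) + b * c2 (s • x + t • y) ≤ c
  have h1 : c1 (s • x + t • y) = s * c1 x + t * c1 y := by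
    unfold c1
    simp only [Prod.fst_add, Prod.snd_add, Prod.smul_fst, Prod.smul_snd, smul_eq_mul]
    ring
  have h2 : c2 (s • x + t • y) = s * c2 x + t * c2 y := by
    unfold c2
    simp only [Prod.snd_add, Prod.smul_snd, smul_eq_mul]
    ring
  rw [h1, h2]
  calc a * (s * c1 x + t * c1 y) + b * (s * c2 x + t * c2 y) =
      s * (a * c1 x + b * c2 x) + t * (a * c1 y + b * c2 y) := by ring
    _ ≤ s * c + t * c := by gcongr
    _ = c := by rw [← add_mul, hst, one_mul]

/-- a half plane containing the corners of a triangle contains the triangle -/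
private theorem din_half (δ a b c : ℝ) (t : (ℤ × ℤ) × Bool) (z : ℝ × ℝ)
    (hz : z ∈ convexHull ℝ ((fun v => δ • pt v) '' (corners t : Set (ℤ × ℤ))))
    (h : ∀ v ∈ corners t, a * (δ * v.1) + b * (δ * v.2) ≤ c) : a * c1 z + b * c2 z ≤ c := by
  refine convexHull_min ?_ (din_convex a b c) hz
  rintro _ ⟨v, hv, rfl⟩
  change a * c1 (δ • pt v) + b * c2 (δ • pt v) ≤ c
  rw [din_c1_pt, din_c2_pt]
  exact h v hv

/-- the centre of a triangle lies in no other triangle -/
private theorem din_mem {δ : ℝ} (hδ : 0 < δ) {S : Finset ((ℤ × ℤ) × Bool)}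
    {t : (ℤ × ℤ) × Bool} (h : dinC δ t ∈ region δ S) : t ∈ S := by
  obtain ⟨t', ht', hz⟩ := h
  suffices ht : t = t' by rwa [ht]
  obtain ⟨⟨i, j⟩, b⟩ := t
  obtain ⟨⟨i', j'⟩, b'⟩ := t'
  have e1 := din_c1 δ ((i, j), b)
  have e2 := din_c2 δ ((i, j), b)
  simp only at e1 e2
  cases b'
  · have h1 := din_half δ (-1) 0 (-(δ * i')) _ _ hz (by
      intro v hv
      simp only [corners, Bool.false_eq_true, if_false, Finset.mem_insert, Finset.mem_singleton] at hv
      rcases hv with rfl | rfl | rfl <;> simp <;> nlinarith)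
    have h2 := din_half δ 0 (-1) (-(δ * j')) _ _ hz (by
      intro v hv
      simp only [corners, Bool.false_eq_true, if_false, Finset.mem_insert, Finset.mem_singleton] at hv
      rcases hv with rfl | rfl | rfl <;> simp <;> nlinarith)
    have h3 := din_half δ 1 1 (δ * (i' + j' + 1)) _ _ hz (by
      intro v hv
      simp only [corners, Bool.false_eq_true, if_false, Finset.mem_insert, Finset.mem_singleton] at hv
      rcases hv with rfl | rfl | rfl <;> simp <;> nlinarith)
    rw [e1, e2] at h1 h2 h3
    have k1 : (i' : ℝ) ≤ i + dinO b := by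
      have : δ * (i' : ℝ) ≤ δ * (i + dinO b) := by linarith
      exact le_of_mul_le_mul_left this hδ
    have k2 : (j' : ℝ) ≤ j + dinO b := by
      have : δ * (j' : ℝ) ≤ δ * (j + dinO b) := by linarith
      exact le_of_mul_le_mul_left this hδ
    have k3 : (i + dinO b) + (j + dinO b) ≤ (i' : ℝ) + j' + 1 := by
      have : δ * ((i + dinO b) + (j + dinO b)) ≤ δ * ((i' : ℝ) + j' + 1) := by linarith
      exact le_of_mul_le_mul_left this hδ
    cases b
    · simp only [dinO, Bool.false_eq_true, if_false] at k1 k2 k3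
      have m1 : i' < i + 1 := by
        have : (i' : ℝ) < i + 1 := by linarith
        exact_mod_cast this
      have m2 : j' < j + 1 := by
        have : (j' : ℝ) < j + 1 := by linarith
        exact_mod_cast this
      have m3 : i + j < i' + j' + 1 := by
        have : (i : ℝ) + j < i' + j' + 1 := by linarith
        exact_mod_cast this
      have : i = i' := by omega
      have : j = j' := by omega
      subst_vars
      rfl
    · simp only [dinO, if_true] at k1 k2 k3
      have m1 : i' < i + 1 := by
        have : (i' : ℝ) < i + 1 := by linarith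
        exact_mod_cast this
      have m2 : j' < j + 1 := by
        have : (j' : ℝ) < j + 1 := by linarith
        exact_mod_cast this
      have m3 : i + j < i' + j' := by
        have : (i : ℝ) + j < i' + j' := by linarith
        exact_mod_cast this
      omega
  · have h1 := din_half δ 1 0 (δ * (i' + 1)) _ _ hz (by
      intro v hv
      simp only [corners, if_true, Finset.mem_insert, Finset.mem_singleton] at hv
      rcases hv with rfl | rfl | rfl <;> simp <;> nlinarith)
    have h2 := din_half δ 0 1 (δ * (j' + 1)) _ _ hz (by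
      intro v hv
      simp only [corners, if_true, Finset.mem_insert, Finset.mem_singleton] at hv
      rcases hv with rfl | rfl | rfl <;> simp <;> nlinarith)
    have h3 := din_half δ (-1) (-1) (-(δ * (i' + j' + 1))) _ _ hz (by
      intro v hv
      simp only [corners, if_true, Finset.mem_insert, Finset.mem_singleton] at hv
      rcases hv with rfl | rfl | rfl <;> simp <;> nlinarith)
    rw [e1, e2] at h1 h2 h3
    have k1 : i + dinO b ≤ (i' : ℝ) + 1 := by
      have : δ * (i + dinO b) ≤ δ * ((i' : ℝ) + 1) := by linarith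
      exact le_of_mul_le_mul_left this hδ
    have k2 : j + dinO b ≤ (j' : ℝ) + 1 := by
      have : δ * (j + dinO b) ≤ δ * ((j' : ℝ) + 1) := by linarith
      exact le_of_mul_le_mul_left this hδ
    have k3 : (i' : ℝ) + j' + 1 ≤ (i + dinO b) + (j + dinO b) := by
      have : δ * ((i' : ℝ) + j' + 1) ≤ δ * ((i + dinO b) + (j + dinO b)) := by linarith
      exact le_of_mul_le_mul_left this hδ
    cases b
    · simp only [dinO, Bool.false_eq_true, if_false] at k1 k2 k3
      have m1 : i < i' + 1 := by
        have : (i : ℝ) < i' + 1 := by linarith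
        exact_mod_cast this
      have m2 : j < j' + 1 := by
        have : (j : ℝ) < j' + 1 := by linarith
        exact_mod_cast this
      have m3 : i' + j' < i + j := by
        have : (i' : ℝ) + j' < i + j := by linarith
        exact_mod_cast this
      omega
    · simp only [dinO, if_true] at k1 k2 k3
      have m1 : i < i' + 1 := by
        have : (i : ℝ) < i' + 1 := by linarith
        exact_mod_cast this
      have m2 : j < j' + 1 := by
        have : (j : ℝ) < j' + 1 := by linarith
        exact_mod_cast this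
      have m3 : i' + j' < i + j + 1 := by
        have : (i' : ℝ) + j' < i + j + 1 := by linarith
        exact_mod_cast this
      have : i = i' := by omega
      have : j = j' := by omega
      subst_vars
      rfl

/-- the centres of the triangles around a vertex are close to the vertex -/
private theorem din_ball {δ : ℝ} (hδ : 0 < δ) (v : ℤ × ℤ) (t : (ℤ × ℤ) × Bool)
    (h1 : |(t.1.1 : ℝ) + dinO t.2 - v.1| ≤ 2 / 3) (h2 : |(t.1.2 : ℝ) + dinO t.2 - v.2| ≤ 2 / 3) :
    dinC δ t ∈ Metric.closedBall (dp δ v) (2 * δ) := by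
  rw [Metric.mem_closedBall, Prod.dist_eq, max_le_iff]
  have h3 : √3 / 2 ≤ 1 := by
    have : √3 ≤ 2 := by
      rw [Real.sqrt_le_left (by norm_num)]
      norm_num
    linarith
  have h4 := din_sqrt_pos
  rw [abs_le] at h1 h2
  unfold dinC dp
  constructor
  · rw [Real.dist_eq, abs_le]
    constructor <;> nlinarith
  · rw [Real.dist_eq]
    have e : δ * (√3 / 2 * (↑t.1.2 + dinO t.2)) - δ * (√3 / 2 * ↑v.2) =
        (δ * (√3 / 2)) * (↑t.1.2 + dinO t.2 - v.2) := by ring
    simp only [e]
    rw [abs_mul, abs_of_pos (by positivity)]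
    have h5 : |(t.1.2 : ℝ) + dinO t.2 - v.2| ≤ 2 / 3 := abs_le.2 h2
    have h6 : δ * (√3 / 2) ≤ δ := by nlinarith
    calc δ * (√3 / 2) * |(t.1.2 : ℝ) + dinO t.2 - v.2| ≤ δ * (2 / 3) := by
          apply mul_le_mul h6 h5 (abs_nonneg _) hδ.le
      _ ≤ 2 * δ := by linarith

private theorem din_step {n : ℕ} {p : ZMod n → ℤ × ℤ} {S : Finset ((ℤ × ℤ) × Bool)}
    (hp : IsPolygon p) (he : Encloses p S) {v : ℤ × ℤ} (a1 : (v, false) ∈ S)
    (a2 : (v - (1, 0), false) ∈ S) (a3 : (v - (0, 1), false) ∈ S) (b1 : (v - (1, 0), true) ∈ S)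
    (b2 : (v - (0, 1), true) ∈ S) (b3 : (v - (1, 1), true) ∈ S) (i : ZMod n) : p i ≠ v := by
  intro hi
  obtain ⟨q1, q2, q3⟩ := he
  have hadj := hp.2.2 i
  rw [hi] at hadj
  have hE : IsEdge p v (p (i + 1)) := ⟨i, Or.inl ⟨hi, rfl⟩⟩
  have hE' : IsEdge p (p (i + 1)) v := ⟨i, Or.inr ⟨hi, rfl⟩⟩
  obtain ⟨w, hw⟩ : ∃ w, p (i + 1) = w := ⟨_, rfl⟩
  rw [hw] at hadj hE hE'
  obtain ⟨x, y⟩ := v
  obtain ⟨x', y'⟩ := w
  simp only [GFF.Adj, Set.mem_insert_iff, Set.mem_singleton_iff, Prod.mk.injEq] at hadj
  simp only [Prod.mk_sub_mk] at a2 a3 b1 b2 b3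
  rcases hadj with h | h | h | h | h | h
  · have ex : x' = x + 1 := by omega
    have ey : y' = y := by omega
    subst ex ey
    have := (q1 (x, y')).1 (by simpa using hE)
    apply this
    simp only [Prod.mk_sub_mk]
    tauto
  · have ex : x = x' + 1 := by omega
    have ey : y' = y := by omega
    subst ex ey
    have := (q1 (x', y')).1 (by simpa using hE')
    apply this
    simp only [Prod.mk_sub_mk]
    simp only [add_sub_cancel_right, sub_zero] at a2 b3 ⊢
    tauto
  · have ex : x' = x := by omega
    have ey : y' = y + 1 := by omega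
    subst ex ey
    have := (q2 (x', y)).1 (by simpa using hE)
    apply this
    simp only [Prod.mk_sub_mk]
    tauto
  · have ex : x' = x := by omega
    have ey : y = y' + 1 := by omega
    subst ex ey
    have := (q2 (x', y')).1 (by simpa using hE')
    apply this
    simp only [Prod.mk_sub_mk]
    simp only [add_sub_cancel_right, sub_zero] at a3 b3 ⊢
    tauto
  · have ex : x' = x + 1 := by omega
    have ey : y = y' + 1 := by omega
    subst ex ey
    have := (q3 (x, y')).1 (by simpa using hE')
    apply this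
    simp only [add_sub_cancel_right, sub_zero] at a3 b2 ⊢
    tauto
  · have ex : x = x' + 1 := by omega
    have ey : y' = y + 1 := by omega
    subst ex ey
    have := (q3 (x', y)).1 (by simpa using hE)
    apply this
    simp only [add_sub_cancel_right, sub_zero] at a2 b1 ⊢
    tauto

/-- Leaf D2. -/
theorem s_in : S_in := by
  intro D δ N p S hA D' hb hD'
  have hK : IsCompact (closure D') := Metric.isCompact_of_isClosed_isBounded isClosed_closure
    hb.closure
  filter_upwards [hA.cpt _ hD' hK] with n hn
  intro v hv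
  have hδ := hA.pos n
  have hball : Metric.closedBall (dp (δ n) v) (2 * δ n) ⊆ D' := by
    unfold Vs at hv
    split_ifs at hv with hfin
    · simpa using hv
    · simp at hv
  have key : ∀ t : (ℤ × ℤ) × Bool, |(t.1.1 : ℝ) + dinO t.2 - v.1| ≤ 2 / 3 →
      |(t.1.2 : ℝ) + dinO t.2 - v.2| ≤ 2 / 3 → t ∈ S n := by
    intro t h1 h2
    exact din_mem hδ (hn (subset_closure (hball (din_ball hδ v t h1 h2))))
  have a1 : (v, false) ∈ S n := by
    apply key <;> simp [dinO, abs_le] <;> first | (norm_num; done) | (constructor <;> linarith)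
  have a2 : (v - (1, 0), false) ∈ S n := by
    apply key <;> simp [dinO, abs_le] <;> first | (norm_num; done) | (constructor <;> linarith)
  have a3 : (v - (0, 1), false) ∈ S n := by
    apply key <;> simp [dinO, abs_le] <;> first | (norm_num; done) | (constructor <;> linarith)
  have b1 : (v - (1, 0), true) ∈ S n := by
    apply key <;> simp [dinO, abs_le] <;> first | (norm_num; done) | (constructor <;> linarith)
  have b2 : (v - (0, 1), true) ∈ S n := by
    apply key <;> simp [dinO, abs_le] <;> first | (norm_num; done) | (constructor <;> linarith)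
  have b3 : (v - (1, 1), true) ∈ S n := by
    apply key <;> simp [dinO, abs_le] <;> first | (norm_num; done) | (constructor <;> linarith)
  classical
  unfold inner
  rw [Finset.mem_filter]
  refine ⟨?_, din_step (hA.poly n) (hA.encl n) a1 a2 a3 b1 b2 b3⟩
  unfold verts
  rw [Finset.mem_biUnion]
  exact ⟨_, a1, by simp [corners]⟩

end Vale.Agent.P153.F.Dom
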