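import Vale.Agent.P153.F.Dom.Stmt

/-!
P153-F, leaf D1: the law of the heights in a polygon.
-/

namespace Vale.Agent.P153.F.Dom

open Finset Filter Topology MeasureTheory
open Vale.Agent.P153.F.Top Vale.Agent.P145.PT

section LawTri

variable {n : ℕ} {p : ZMod n → ℤ × ℤ} {S : Finset ((ℤ × ℤ) × Bool)}

theorem dl_mem {v : ℤ × ℤ} {t : (ℤ × ℤ) × Bool} (ht : t ∈ S) (hv : v ∈ corners t) : v ∈ verts S :=
  mem_biUnion.2 ⟨t, ht, hv⟩

theorem dl_cF {v w : ℤ × ℤ} : w ∈ corners (v, false) ↔ w = v ∨ w = v + (1, 0) ∨ w = v + (0, 1) := by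
  simp [corners]

theorem dl_cT {v w : ℤ × ℤ} :
    w ∈ corners (v, true) ↔ w = v + (1, 0) ∨ w = v + (0, 1) ∨ w = v + (1, 1) := by
  simp [corners]

theorem IsEdge.left {a b : ℤ × ℤ} (h : IsEdge p a b) : ∃ i, p i = a := by
  obtain ⟨i, ⟨h1, _⟩ | ⟨_, h2⟩⟩ := h
  · exact ⟨i, h1⟩
  · exact ⟨i + 1, h2⟩

theorem IsEdge.right {a b : ℤ × ℤ} (h : IsEdge p a b) : ∃ i, p i = b := by
  obtain ⟨i, ⟨_, h2⟩ | ⟨h1, _⟩⟩ := h
  · exact ⟨i + 1, h2⟩
  · exact ⟨i, h1⟩

theorem IsEdge.symm {a b : ℤ × ℤ} (h : IsEdge p a b) : IsEdge p b a := by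
  obtain ⟨i, h⟩ := h
  exact ⟨i, h.symm⟩

/-- The six triangles around a vertex off the polygon. -/
theorem dl_six (hS : Encloses p S) (v : ℤ × ℤ) (hv : ∀ i, p i ≠ v) :
    (((v - (1, 0), true) ∈ S) ↔ (v, false) ∈ S) ∧ (((v - (1, 0), false) ∈ S) ↔ (v, false) ∈ S) ∧
    (((v - (1, 1), true) ∈ S) ↔ (v, false) ∈ S) ∧ (((v - (0, 1), false) ∈ S) ↔ (v, false) ∈ S) ∧
    (((v - (0, 1), true) ∈ S) ↔ (v, false) ∈ S) := by
  obtain ⟨h1, h2, h3⟩ := hS
  have hn : ∀ b, ¬ IsEdge p v b := fun b h => by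
    obtain ⟨i, hi⟩ := h.left
    exact hv i hi
  have hn' : ∀ b, ¬ IsEdge p b v := fun b h => hn b h.symm
  have e1 := h2 v
  have e2 := h3 (v - (1, 0))
  have e3 := h1 (v - (1, 0))
  have e4 := h2 (v - (0, 1))
  have e6 := h1 v
  rw [sub_add_cancel] at e2 e3 e4
  rw [show v - (1, 0) - (0, 1) = v - (1, 1) by rw [sub_sub]; rfl] at e3
  rw [show v - (0, 1) - (1, 0) = v - (1, 1) by rw [sub_sub]; rfl] at e4
  have i1 : (v, false) ∈ S ↔ (v - (1, 0), true) ∈ S := not_not.1 fun hc => hn _ (e1.2 hc)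
  have i2 : (v - (1, 0), false) ∈ S ↔ (v - (1, 0), true) ∈ S := not_not.1 fun hc => hn _ (e2.2 hc)
  have i3 : (v - (1, 0), false) ∈ S ↔ (v - (1, 1), true) ∈ S := not_not.1 fun hc => hn' _ (e3.2 hc)
  have i4 : (v - (0, 1), false) ∈ S ↔ (v - (1, 1), true) ∈ S := not_not.1 fun hc => hn' _ (e4.2 hc)
  have i6 : (v, false) ∈ S ↔ (v - (0, 1), true) ∈ S := not_not.1 fun hc => hn _ (e6.2 hc)
  exact ⟨i1.symm, i2.trans i1.symm, i3.symm.trans (i2.trans i1.symm),
    i4.trans (i3.symm.trans (i2.trans i1.symm)), i6.symm⟩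

theorem dl_inner {v : ℤ × ℤ} : v ∈ inner p S ↔ v ∈ verts S ∧ ∀ i, p i ≠ v := by
  classical
  simp [inner]

theorem dl_all (hS : Encloses p S) {v : ℤ × ℤ} (hv : v ∈ inner p S) :
    (v, false) ∈ S ∧ (v - (1, 0), false) ∈ S ∧ (v - (0, 1), false) ∈ S := by
  obtain ⟨h1, h2⟩ := dl_inner.1 hv
  obtain ⟨k1, k2, k3, k4, k5⟩ := dl_six hS v h2
  have h0 : (v, false) ∈ S := by
    obtain ⟨⟨w, b⟩, ht, hc⟩ := mem_biUnion.1 h1
    cases b
    · rcases dl_cF.1 hc with h | h | h
      · rw [h]; exact ht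
      · rw [← k2, h, add_sub_cancel_right]; exact ht
      · rw [← k4, h, add_sub_cancel_right]; exact ht
    · rcases dl_cT.1 hc with h | h | h
      · rw [← k1, h, add_sub_cancel_right]; exact ht
      · rw [← k5, h, add_sub_cancel_right]; exact ht
      · rw [← k3, h, add_sub_cancel_right]; exact ht
  exact ⟨h0, k2.2 h0, k4.2 h0⟩

/-- The neighbours of an inner vertex are in the domain. -/
theorem dl_nbr (hS : Encloses p S) {v w : ℤ × ℤ} (hv : v ∈ inner p S) (hw : Adj v w) :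
    w ∈ verts S := by
  obtain ⟨h1, h2, h3⟩ := dl_all hS hv
  unfold Adj at hw
  obtain ⟨v1, v2⟩ := v
  obtain ⟨w1, w2⟩ := w
  simp only [Set.mem_insert_iff, Set.mem_singleton_iff, Prod.mk.injEq] at hw
  rcases hw with h | h | h | h | h | h
  · refine dl_mem h1 (dl_cF.2 ?_)
    right; left
    simp only [Prod.mk_add_mk, Prod.mk.injEq]
    omega
  · refine dl_mem h2 (dl_cF.2 ?_)
    left
    simp only [Prod.mk_sub_mk, Prod.mk.injEq]
    omega
  · refine dl_mem h1 (dl_cF.2 ?_)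
    right; right
    simp only [Prod.mk_add_mk, Prod.mk.injEq]
    omega
  · refine dl_mem h3 (dl_cF.2 ?_)
    left
    simp only [Prod.mk_sub_mk, Prod.mk.injEq]
    omega
  · refine dl_mem h3 (dl_cF.2 ?_)
    right; left
    simp only [Prod.mk_sub_mk, Prod.mk_add_mk, Prod.mk.injEq]
    omega
  · refine dl_mem h2 (dl_cF.2 ?_)
    right; right
    simp only [Prod.mk_sub_mk, Prod.mk_add_mk, Prod.mk.injEq]
    omega

/-- The ends of an edge of the polygon are in the domain. -/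
theorem dl_edge (hS : Encloses p S) {a b : ℤ × ℤ} (h : IsEdge p a b) (hab : GFF.Adj a b) :
    a ∈ verts S := by
  obtain ⟨h1, h2, h3⟩ := hS
  have key : ∀ t t' : (ℤ × ℤ) × Bool, ¬ (t ∈ S ↔ t' ∈ S) → a ∈ corners t → a ∈ corners t' →
      a ∈ verts S := by
    intro t t' h ha ha'
    by_cases ht : t ∈ S
    · exact dl_mem ht ha
    · by_cases ht' : t' ∈ S
      · exact dl_mem ht' ha'
      · exact absurd (by tauto) h
  unfold GFF.Adj at hab
  obtain ⟨a1, a2⟩ := a
  obtain ⟨b1, b2⟩ := b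
  simp only [Set.mem_insert_iff, Set.mem_singleton_iff, Prod.mk.injEq] at hab
  rcases hab with g | g | g | g | g | g
  · have e : ((b1, b2) : ℤ × ℤ) = (a1, a2) + (1, 0) := by
      simp only [Prod.mk_add_mk, Prod.mk.injEq]; omega
    rw [e] at h
    refine key _ _ ((h1 _).1 h) (dl_cF.2 ?_) (dl_cT.2 ?_)
    · left; rfl
    · right; left; rw [sub_add_cancel]
  · have e : ((a1, a2) : ℤ × ℤ) = (b1, b2) + (1, 0) := by
      simp only [Prod.mk_add_mk, Prod.mk.injEq]; omega
    rw [e] at h key ⊢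
    refine key _ _ ((h1 _).1 h.symm) (dl_cF.2 ?_) (dl_cT.2 ?_)
    · right; left; rfl
    · right; right
      simp only [Prod.mk_sub_mk, Prod.mk_add_mk, Prod.mk.injEq]; omega
  · have e : ((b1, b2) : ℤ × ℤ) = (a1, a2) + (0, 1) := by
      simp only [Prod.mk_add_mk, Prod.mk.injEq]; omega
    rw [e] at h
    refine key _ _ ((h2 _).1 h) (dl_cF.2 ?_) (dl_cT.2 ?_)
    · left; rfl
    · left; rw [sub_add_cancel]
  · have e : ((a1, a2) : ℤ × ℤ) = (b1, b2) + (0, 1) := by
      simp only [Prod.mk_add_mk, Prod.mk.injEq]; omega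
    rw [e] at h key ⊢
    refine key _ _ ((h2 _).1 h.symm) (dl_cF.2 ?_) (dl_cT.2 ?_)
    · right; right; rfl
    · right; right
      simp only [Prod.mk_sub_mk, Prod.mk_add_mk, Prod.mk.injEq]; omega
  · have e1 : ((a1, a2) : ℤ × ℤ) = (a1, a2 - 1) + (0, 1) := by
      simp only [Prod.mk_add_mk, Prod.mk.injEq]; omega
    have e2 : ((b1, b2) : ℤ × ℤ) = (a1, a2 - 1) + (1, 0) := by
      simp only [Prod.mk_add_mk, Prod.mk.injEq]; omega
    rw [e2] at h
    have h' : IsEdge p ((a1, a2 - 1) + (0, 1)) ((a1, a2 - 1) + (1, 0)) := by rw [← e1]; exact h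
    refine key _ _ ((h3 _).1 h'.symm) (dl_cF.2 ?_) (dl_cT.2 ?_)
    · right; right; exact e1
    · right; left; exact e1
  · have e1 : ((a1, a2) : ℤ × ℤ) = (a1 - 1, a2) + (1, 0) := by
      simp only [Prod.mk_add_mk, Prod.mk.injEq]; omega
    have e2 : ((b1, b2) : ℤ × ℤ) = (a1 - 1, a2) + (0, 1) := by
      simp only [Prod.mk_add_mk, Prod.mk.injEq]; omega
    rw [e2] at h
    have h' : IsEdge p ((a1 - 1, a2) + (1, 0)) ((a1 - 1, a2) + (0, 1)) := by rw [← e1]; exact h
    refine key _ _ ((h3 _).1 h') (dl_cF.2 ?_) (dl_cT.2 ?_)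
    · right; left; exact e1
    · left; exact e1

theorem dl_poly (hp : IsPolygon p) (hS : Encloses p S) (i : ZMod n) : p i ∈ verts S :=
  dl_edge hS ⟨i, Or.inl ⟨rfl, rfl⟩⟩ (hp.2.2 i)

end LawTri

section LawHts

variable {n : ℕ} {p : ZMod n → ℤ × ℤ} {S : Finset ((ℤ × ℤ) × Bool)}

open Classical in
/-- restriction to the domain -/
noncomputable def dlR (V : Finset (ℤ × ℤ)) (g : ℤ × ℤ → ℤ) : ℤ × ℤ → ℤ := fun x => if x ∈ V then g x else 0

theorem dl_heights (hp : IsPolygon p) (hS : Encloses p S) :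
    Heights p S = dlR (verts S) '' (FreeF (inner p S) (verts S) : Set (ℤ × ℤ → ℤ)) := by
  classical
  ext h
  simp only [Set.mem_image, SetLike.mem_coe, mem_FreeF]
  constructor
  · rintro ⟨h1, h2, h3, h4⟩
    refine ⟨fun x => if x ∈ verts S then h x else 1, ⟨⟨fun x => ?_, fun x y hxy => ?_⟩, fun x hx => ?_, fun x hx => ?_⟩, ?_⟩
    · by_cases hx : x ∈ verts S
      · simp only [hx, if_true]; exact h1 x hx
      · simp only [hx, if_false]; exact odd_one
    · have hb : ∀ x, x ∈ verts S → x ∉ inner p S → |h x| = 1 := by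
        intro x hx hx'
        have : ∃ i, p i = x := by
          by_contra hc
          push Not at hc
          exact hx' (dl_inner.2 ⟨hx, hc⟩)
        obtain ⟨i, rfl⟩ := this
        rcases h2 i with e | e <;> simp [e]
      by_cases hx : x ∈ verts S <;> by_cases hy : y ∈ verts S
      · simp only [hx, hy, if_true]
        rcases h3 x hx y hy hxy with e | e <;> simp [e]
      · simp only [hx, hy, if_true, if_false]
        have e := hb x hx fun hi => hy (dl_nbr hS hi hxy)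
        rcases abs_eq (zero_le_one' ℤ) |>.1 e with e | e <;> simp [e]
      · simp only [hx, hy, if_true, if_false]
        have e := hb y hy fun hi => hx (dl_nbr hS hi hxy.symm)
        rcases abs_eq (zero_le_one' ℤ) |>.1 e with e | e <;> simp [e]
      · simp [hx, hy]
    · by_cases hx' : x ∈ verts S
      · simp only [hx', if_true]
        have : ∃ i, p i = x := by
          by_contra hc
          push Not at hc
          exact hx (dl_inner.2 ⟨hx', hc⟩)
        obtain ⟨i, rfl⟩ := this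
        rcases h2 i with e | e <;> simp [e]
      · simp [hx']
    · simp [hx]
    · funext x
      unfold dlR
      by_cases hx : x ∈ verts S
      · simp [hx]
      · simp [hx, h4 x hx]
  · rintro ⟨g, ⟨⟨g1, g2⟩, g3, g4⟩, rfl⟩
    refine ⟨fun v hv => ?_, fun i => ?_, fun v hv w hw hvw => ?_, fun v hv => ?_⟩
    · simp only [dlR, hv, if_true]; exact g1 v
    · have hi := dl_poly hp hS i
      simp only [dlR, hi, if_true]
      have e := g3 (p i) fun h => (dl_inner.1 h).2 i rfl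
      exact abs_eq (zero_le_one' ℤ) |>.1 e
    · simp only [dlR, hv, hw, if_true]
      have e := g2 v w hvw
      have e1 := (g1 v).sub_odd (g1 w)
      obtain ⟨k, hk⟩ := e1
      rw [hk] at e ⊢
      have e0 := abs_nonneg (k + k)
      obtain ⟨e2, e3⟩ := abs_le.1 e
      have : k = 0 ∨ k = 1 ∨ k = -1 := by omega
      rcases this with rfl | rfl | rfl <;> simp
    · simp [dlR, hv]

theorem dl_inj : Set.InjOn (dlR (verts S)) (FreeF (inner p S) (verts S) : Set (ℤ × ℤ → ℤ)) := by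
  intro g hg g' hg' h
  rw [SetLike.mem_coe, mem_FreeF] at hg hg'
  funext x
  by_cases hx : x ∈ verts S
  · have := congrFun h x
    simpa [dlR, hx] using this
  · rw [hg.2.2 x hx, hg'.2.2 x hx]

end LawHts

section LawMeas

/-- The uniform distribution on a finite set. -/
theorem dl_unif {T : Finset (ℤ × ℤ → ℤ)} (hT : T.Nonempty) :
    IsProbabilityMeasure (((#T : ENNReal))⁻¹ • ∑ h ∈ T, Measure.dirac h) ∧
    (∀ G : (ℤ × ℤ → ℤ) → ℝ, Integrable G (((#T : ENNReal))⁻¹ • ∑ h ∈ T, Measure.dirac h)) ∧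
    ∀ G : (ℤ × ℤ → ℤ) → ℝ, ∫ h, G h ∂(((#T : ENNReal))⁻¹ • ∑ h ∈ T, Measure.dirac h) = ev T G := by
  have h0 : ((#T : ℕ) : ENNReal) ≠ 0 := by
    rw [Nat.cast_ne_zero]
    exact hT.card_pos.ne'
  have h1 : ((#T : ℕ) : ENNReal) ≠ ⊤ := ENNReal.natCast_ne_top _
  have hi : ∀ G : (ℤ × ℤ → ℤ) → ℝ, ∀ h ∈ T, Integrable G (Measure.dirac h) := fun G h _ =>
    integrable_dirac (by simp)
  refine ⟨⟨?_⟩, fun G => ?_, fun G => ?_⟩
  · rw [Measure.smul_apply, Measure.finsetSum_apply]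
    simp only [measure_univ, sum_const, nsmul_eq_mul, mul_one, smul_eq_mul]
    exact ENNReal.inv_mul_cancel h0 h1
  · refine Integrable.smul_measure ?_ (ENNReal.inv_ne_top.2 h0)
    exact integrable_finsetSum_measure.2 (hi G)
  · rw [integral_smul_measure, integral_finsetSum_measure (hi G)]
    simp only [integral_dirac]
    rw [ev, ENNReal.toReal_inv, ENNReal.toReal_natCast, smul_eq_mul]
    ring

end LawMeas

/-- Leaf D1. -/
theorem s_law : S_law := by
  classical
  intro n p S hp hS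
  set T : Finset (ℤ × ℤ → ℤ) := (FreeF (inner p S) (verts S)).image (dlR (verts S)) with hT
  have hH : Heights p S = (T : Set (ℤ × ℤ → ℤ)) := by
    rw [dl_heights hp hS, hT, coe_image]
  have hTn : T.Nonempty := (nonempty_free _ _).image _
  have hlaw : law p S = ((#T : ENNReal))⁻¹ • ∑ h ∈ T, Measure.dirac h := by
    unfold law
    rw [hH, Set.ncard_coe_finset, finsum_mem_coe_finset]
  obtain ⟨k1, k2, k3⟩ := dl_unif hTn
  refine ⟨hH ▸ T.finite_toSet, hH ▸ hTn, hlaw ▸ k1, fun G => hlaw ▸ k2 G, fun A => ?_⟩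
  rw [hlaw, k3]
  have hcl : clo (inner p S) ⊆ verts S := by
    intro x hx
    unfold clo at hx
    rcases mem_union.1 hx with h | h
    · exact (dl_inner.1 h).1
    · obtain ⟨y, hy, hyx⟩ := mem_biUnion.1 h
      refine dl_nbr hS hy ?_
      obtain ⟨x1, x2⟩ := x
      simp only [mem_insert, mem_singleton, Prod.mk.injEq] at hyx
      unfold Adj
      simp only [Set.mem_insert_iff, Set.mem_singleton_iff, Prod.mk.injEq]
      omega
  have e1 : ze (inner p S) A = ev (FreeF (inner p S) (verts S)) fun h => A (vh (inner p S) h) := by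
    unfold ze
    refine (F.ev_window hcl (sub_clo _) (adj_clo _) _ fun h h' hh => ?_).symm
    have : vh (inner p S) h = vh (inner p S) h' := by
      funext v
      unfold vh
      by_cases hv : v ∈ inner p S
      · simp only [hv, if_true, hh v (sub_clo _ v hv)]
      · simp only [hv, if_false]
    simp only [this]
  rw [e1]
  have e2 : ∀ g : ℤ × ℤ → ℤ, vh (inner p S) (dlR (verts S) g) = vh (inner p S) g := by
    intro g
    funext v
    unfold vh dlR
    by_cases hv : v ∈ inner p S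
    · simp only [hv, (dl_inner.1 hv).1, if_true]
    · simp only [hv, if_false]
  unfold ev
  rw [hT, card_image_of_injOn dl_inj, sum_image dl_inj]
  simp only [e2]

end Vale.Agent.P153.F.Dom
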