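import Vale.Agent.P153.F.Dom.Stmt

/-!
P153-F, leaf D3: the inner vertices of the lattice polygons are eventually in every neighbourhood of
the closure of the domain.
-/

namespace Vale.Agent.P153.F.Dom

open Finset Filter Topology MeasureTheory
open Vale.Agent.P153.F.Top Vale.Agent.P145.PT

namespace OutI

/-- The lattice coordinates of the point `z`, rounded down. -/
noncomputable def fl (δ : ℝ) (z : ℝ × ℝ) : ℤ × ℤ := (⌊c1 z / δ⌋, ⌊c2 z / δ⌋)

lemma s3 : (1 : ℝ) < √3 := by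
  rw [Real.lt_sqrt (by norm_num)]; norm_num

lemma s3' : √3 < (2 : ℝ) := by
  rw [Real.sqrt_lt' (by norm_num)]; norm_num

lemma z2_eq (z : ℝ × ℝ) : z.2 = √3 / 2 * c2 z := by
  have h3 : √3 ≠ 0 := by positivity
  simp only [c2]; field_simp

lemma z1_eq (z : ℝ × ℝ) : z.1 = c1 z + c2 z / 2 := by
  have h3 : √3 ≠ 0 := by positivity
  simp only [c1, c2]; field_simp; ring

lemma c1_dp (δ : ℝ) (v : ℤ × ℤ) : c1 (dp δ v) = δ * v.1 := by
  have h3 : √3 ≠ 0 := by positivity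
  simp only [c1, dp]; field_simp; ring

lemma c2_dp (δ : ℝ) (v : ℤ × ℤ) : c2 (dp δ v) = δ * v.2 := by
  have h3 : √3 ≠ 0 := by positivity
  simp only [c2, dp]; field_simp

lemma fl_dp {δ : ℝ} (hδ : 0 < δ) (v : ℤ × ℤ) : fl δ (dp δ v) = v := by
  simp only [fl, c1_dp, c2_dp, mul_div_cancel_left₀ _ hδ.ne', Int.floor_intCast]

lemma smul_pt (δ : ℝ) (v : ℤ × ℤ) : δ • pt v = dp δ v := rfl

lemma dist_dp {δ : ℝ} {z : ℝ × ℝ} {v : ℤ × ℤ} (h1 : |c1 z - δ * v.1| ≤ 3 * δ)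
    (h2 : |c2 z - δ * v.2| ≤ 3 * δ) : dist z (dp δ v) ≤ 5 * δ := by
  have a1 := z1_eq z
  have a2 := z2_eq z
  rw [abs_le] at h1 h2
  have h3 := s3
  have h4 := s3'
  rw [Prod.dist_eq, Real.dist_eq, Real.dist_eq]
  simp only [dp]
  have e1 : z.1 - δ * (v.1 + v.2 / 2) = (c1 z - δ * v.1) + (c2 z - δ * v.2) / 2 := by
    rw [a1]; ring
  have e2 : z.2 - δ * (√3 / 2 * v.2) = √3 / 2 * (c2 z - δ * v.2) := by
    rw [a2]; ring
  rw [e1, e2]
  refine max_le (abs_le.2 ⟨by linarith, by linarith⟩) ?_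
  rw [abs_mul, abs_of_pos (by positivity : (0 : ℝ) < √3 / 2)]
  have h5 : |c2 z - δ * v.2| ≤ 3 * δ := abs_le.2 h2
  have h6 := abs_nonneg (c2 z - δ * v.2)
  nlinarith

lemma near_fl {δ : ℝ} (hδ : 0 < δ) {z : ℝ × ℝ} {v : ℤ × ℤ} (h1 : |v.1 - (fl δ z).1| ≤ 2)
    (h2 : |v.2 - (fl δ z).2| ≤ 2) : dist z (dp δ v) ≤ 5 * δ := by
  rw [abs_le] at h1 h2
  simp only [fl] at h1 h2
  have a1 := Int.floor_le (c1 z / δ)
  have a2 := Int.lt_floor_add_one (c1 z / δ)
  have a3 := Int.floor_le (c2 z / δ)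
  have a4 := Int.lt_floor_add_one (c2 z / δ)
  have b1 : ((v.1 : ℤ) : ℝ) ≤ ⌊c1 z / δ⌋ + 2 := by
    have : v.1 ≤ ⌊c1 z / δ⌋ + 2 := by omega
    exact_mod_cast this
  have b2 : ((⌊c1 z / δ⌋ : ℤ) : ℝ) ≤ v.1 + 2 := by
    have : ⌊c1 z / δ⌋ ≤ v.1 + 2 := by omega
    exact_mod_cast this
  have b3 : ((v.2 : ℤ) : ℝ) ≤ ⌊c2 z / δ⌋ + 2 := by
    have : v.2 ≤ ⌊c2 z / δ⌋ + 2 := by omega
    exact_mod_cast this
  have b4 : ((⌊c2 z / δ⌋ : ℤ) : ℝ) ≤ v.2 + 2 := by
    have : ⌊c2 z / δ⌋ ≤ v.2 + 2 := by omega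
    exact_mod_cast this
  have e1 : c1 z = δ * (c1 z / δ) := by field_simp
  have e2 : c2 z = δ * (c2 z / δ) := by field_simp
  have hk : ∀ x y : ℝ, x ≤ y + 3 → y ≤ x + 3 → |δ * x - δ * y| ≤ 3 * δ := by
    intro x y hx hy
    rw [← mul_sub, abs_mul, abs_of_pos hδ, mul_comm (3 : ℝ)]
    exact mul_le_mul_of_nonneg_left (abs_le.2 ⟨by linarith, by linarith⟩) hδ.le
  refine dist_dp ?_ ?_
  · rw [e1]; exact hk _ _ (by linarith) (by linarith)
  · rw [e2]; exact hk _ _ (by linarith) (by linarith)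

lemma fl_close {δ : ℝ} (hδ : 0 < δ) {z z' : ℝ × ℝ} (h : dist z' z < δ / 4) :
    |(fl δ z').1 - (fl δ z).1| ≤ 1 ∧ |(fl δ z').2 - (fl δ z).2| ≤ 1 := by
  rw [Prod.dist_eq, Real.dist_eq, Real.dist_eq, max_lt_iff, abs_lt, abs_lt] at h
  obtain ⟨⟨h1, h2⟩, h3, h4⟩ := h
  have h5 := s3
  have hi : 0 < (√3)⁻¹ := by positivity
  have hi1 : (√3)⁻¹ < 1 := inv_lt_one_of_one_lt₀ h5
  have e1 : c1 z' - c1 z = (z'.1 - z.1) - (z'.2 - z.2) * (√3)⁻¹ := by
    simp only [c1, div_eq_mul_inv]; ring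
  have e2 : c2 z' - c2 z = 2 * ((z'.2 - z.2) * (√3)⁻¹) := by
    simp only [c2, div_eq_mul_inv]; ring
  have h6 : |(z'.2 - z.2) * (√3)⁻¹| < δ / 4 := by
    rw [abs_mul, abs_of_pos hi]
    have : |z'.2 - z.2| < δ / 4 := abs_lt.2 ⟨h3, h4⟩
    nlinarith [abs_nonneg (z'.2 - z.2)]
  rw [abs_lt] at h6
  have hk : ∀ x y : ℝ, |x - y| < δ → |⌊x / δ⌋ - ⌊y / δ⌋| ≤ 1 := by
    intro x y hxy
    have h7 : |x / δ - y / δ| < 1 := by
      rw [← sub_div, abs_div, abs_of_pos hδ, div_lt_one hδ]; exact hxy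
    rw [abs_lt] at h7
    have a1 := Int.floor_le (x / δ)
    have a2 := Int.lt_floor_add_one (x / δ)
    have a3 := Int.floor_le (y / δ)
    have a4 := Int.lt_floor_add_one (y / δ)
    have b1 : ((⌊x / δ⌋ : ℤ) : ℝ) < ⌊y / δ⌋ + 2 := by linarith
    have b2 : ((⌊y / δ⌋ : ℤ) : ℝ) < ⌊x / δ⌋ + 2 := by linarith
    have b1' : ⌊x / δ⌋ < ⌊y / δ⌋ + 2 := by exact_mod_cast b1
    have b2' : ⌊y / δ⌋ < ⌊x / δ⌋ + 2 := by exact_mod_cast b2
    rw [abs_le]; omega
  refine ⟨hk _ _ ?_, hk _ _ ?_⟩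
  · rw [e1, abs_lt]; constructor <;> linarith
  · rw [e2, abs_lt]; constructor <;> linarith

/-! ### The triangles near a lattice point off the polygon -/

section Disc

variable {n : ℕ} {p : ZMod n → ℤ × ℤ} {S : Finset ((ℤ × ℤ) × Bool)}

lemma noEdge {a b : ℤ × ℤ} (ha : ∀ i, p i ≠ a) : ¬ IsEdge p a b := by
  rintro ⟨i, h | h⟩
  · exact ha _ h.1
  · exact ha _ h.2

lemma st0 (hE : Encloses p S) {x y : ℤ} (h : ∀ i, p i ≠ (x + 1, y)) :
    ((x, y), false) ∈ S ↔ ((x, y), true) ∈ S := by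
  have h1 := hE.2.2 (x, y)
  have h2 : ¬ IsEdge p ((x, y) + (1, 0)) ((x, y) + (0, 1)) := by
    refine noEdge ?_
    simpa using h
  rw [h1, not_not] at h2
  exact h2

lemma st1 (hE : Encloses p S) {x y : ℤ} (h : ∀ i, p i ≠ (x, y + 1)) :
    ((x, y), true) ∈ S ↔ ((x, y + 1), false) ∈ S := by
  have h1 := hE.1 (x, y + 1)
  have h2 : ¬ IsEdge p (x, y + 1) ((x, y + 1) + (1, 0)) := noEdge h
  rw [h1, not_not] at h2
  have e : ((x, y + 1) : ℤ × ℤ) - (0, 1) = (x, y) := by simp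
  rw [e] at h2
  exact h2.symm

lemma st2 (hE : Encloses p S) {x y : ℤ} (h : ∀ i, p i ≠ (x + 1, y)) :
    ((x, y), true) ∈ S ↔ ((x + 1, y), false) ∈ S := by
  have h1 := hE.2.1 (x + 1, y)
  have h2 : ¬ IsEdge p (x + 1, y) ((x + 1, y) + (0, 1)) := noEdge h
  rw [h1, not_not] at h2
  have e : ((x + 1, y) : ℤ × ℤ) - (1, 0) = (x, y) := by simp
  rw [e] at h2
  exact h2.symm

lemma sth (hE : Encloses p S) {x y : ℤ} (h : ∀ i, p i ≠ (x + 1, y)) :
    ((x, y), false) ∈ S ↔ ((x + 1, y), false) ∈ S := (st0 hE h).trans (st2 hE h)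

lemma stv (hE : Encloses p S) {x y : ℤ} (h : ∀ i, p i ≠ (x + 1, y)) (h' : ∀ i, p i ≠ (x, y + 1)) :
    ((x, y), false) ∈ S ↔ ((x, y + 1), false) ∈ S := (st0 hE h).trans (st1 hE h')

/-- No vertex of the polygon near `u`. -/
def Free (p : ZMod n → ℤ × ℤ) (u : ℤ × ℤ) : Prop :=
  ∀ x y : ℤ, |x - u.1| ≤ 2 → |y - u.2| ≤ 2 → ∀ i, p i ≠ (x, y)

lemma const (hE : Encloses p S) {u u' : ℤ × ℤ} (hf : Free p u) (h1 : |u'.1 - u.1| ≤ 1)
    (h2 : |u'.2 - u.2| ≤ 1) : (u', false) ∈ S ↔ (u, false) ∈ S := by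
  obtain ⟨x, y⟩ := u
  obtain ⟨x', y'⟩ := u'
  simp only [Free, abs_le] at hf h1 h2
  have hx : ((x', y'), false) ∈ S ↔ ((x, y'), false) ∈ S := by
    have h : x' = x - 1 ∨ x' = x ∨ x' = x + 1 := by omega
    rcases h with rfl | rfl | rfl
    · have := sth hE (x := x - 1) (y := y') (hf _ _ (by constructor <;> omega)
        (by constructor <;> omega))
      rwa [sub_add_cancel] at this
    · rfl
    · exact (sth hE (x := x) (y := y') (hf _ _ (by constructor <;> omega)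
        (by constructor <;> omega))).symm
  have hy : ((x, y'), false) ∈ S ↔ ((x, y), false) ∈ S := by
    have h : y' = y - 1 ∨ y' = y ∨ y' = y + 1 := by omega
    rcases h with rfl | rfl | rfl
    · have := stv hE (x := x) (y := y - 1) (hf _ _ (by constructor <;> omega)
        (by constructor <;> omega)) (hf _ _ (by constructor <;> omega) (by constructor <;> omega))
      rwa [sub_add_cancel] at this
    · rfl
    · exact (stv hE (x := x) (y := y) (hf _ _ (by constructor <;> omega)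
        (by constructor <;> omega)) (hf _ _ (by constructor <;> omega)
        (by constructor <;> omega))).symm
  exact hx.trans hy

lemma start (hE : Encloses p S) {v : ℤ × ℤ} (hf : Free p v) (hv : v ∈ verts S) :
    (v, false) ∈ S := by
  simp only [verts, mem_biUnion] at hv
  obtain ⟨⟨u, b⟩, ht, hv⟩ := hv
  cases b with
  | false =>
    refine (const hE hf (u' := u) ?_ ?_).1 ht
    all_goals
      simp only [corners, Bool.false_eq_true, if_false, Finset.mem_insert,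
        Finset.mem_singleton] at hv
      rcases hv with rfl | rfl | rfl <;> simp
  | true =>
    have h0 : (u, false) ∈ S := by
      refine (st0 hE (x := u.1) (y := u.2) ?_).2 ht
      refine hf _ _ ?_ ?_
      all_goals
        simp only [corners, if_true, Finset.mem_insert, Finset.mem_singleton] at hv
        rcases hv with rfl | rfl | rfl <;> simp
    refine (const hE hf (u' := u) ?_ ?_).1 h0
    all_goals
      simp only [corners, if_true, Finset.mem_insert, Finset.mem_singleton] at hv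
      rcases hv with rfl | rfl | rfl <;> simp

/-- An unbounded path which stays away from the polygon starts outside. -/
lemma outside (hE : Encloses p S) {δ : ℝ} (hδ : 0 < δ) {γ : ℝ → ℝ × ℝ} (hγ : Continuous γ)
    (hfar : ∀ c, 1 ≤ c → ∀ i, 5 * δ < dist (γ c) (dp δ (p i)))
    (hub : ¬ Bornology.IsBounded (γ '' Set.Ici 1)) : (fl δ (γ 1), false) ∉ S := by
  intro hcon
  classical
  have hfree : ∀ c, 1 ≤ c → Free p (fl δ (γ c)) := by
    intro c hc x y hx hy i hi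
    have h1 := near_fl hδ (z := γ c) (v := (x, y)) hx hy
    have h2 := hfar c hc i
    rw [hi] at h2
    linarith
  have hco : ContinuousOn (fun c => decide ((fl δ (γ c), false) ∈ S)) (Set.Ici 1) := by
    intro c hc
    have h1 : ∀ᶠ c' in 𝓝[Set.Ici 1] c, dist (γ c') (γ c) < δ / 4 :=
      (hγ.continuousAt.mono_left nhdsWithin_le_nhds).eventually
        (Metric.ball_mem_nhds _ (by positivity))
    refine tendsto_nhds_of_eventually_eq ?_
    filter_upwards [h1] with c' h2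
    obtain ⟨h3, h4⟩ := fl_close hδ h2
    exact decide_eq_decide.2 (const hE (hfree c hc) h3 h4)
  have hall : ∀ c, 1 ≤ c → (fl δ (γ c), false) ∈ S := by
    intro c hc
    have h := isPreconnected_Ici.constant hco (Set.mem_Ici.2 hc) Set.self_mem_Ici
    simpa [hcon] using h
  refine hub ?_
  have hb : Bornology.IsBounded (⋃ t ∈ S, Metric.closedBall (dp δ t.1) (5 * δ)) :=
    (Bornology.isBounded_biUnion_finset S).2 fun t _ => Metric.isBounded_closedBall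
  refine hb.subset ?_
  rintro _ ⟨c, hc, rfl⟩
  refine Set.mem_biUnion (hall c hc) ?_
  rw [Metric.mem_closedBall]
  exact near_fl hδ (by simp) (by simp)

end Disc

/-! ### Rays -/

/-- The open unit disc. -/
def dsc : Set (ℝ × ℝ) := {z | z.1 ^ 2 + z.2 ^ 2 < 1}

lemma closed_disc (Φ : (ℝ × ℝ) ≃ₜ (ℝ × ℝ)) {s : ℝ} (hs : 0 < s) {w : ℝ × ℝ}
    (hw : w.1 ^ 2 + w.2 ^ 2 ≤ 1) : Φ w ∈ Metric.thickening s (Φ '' dsc) := by
  have hc : Continuous fun c : ℝ => Φ (c • w) :=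
    Φ.continuous.comp (continuous_id.smul continuous_const)
  obtain ⟨η, hη, h⟩ := Metric.continuousAt_iff.1 (hc.continuousAt (x := 1)) s hs
  set c : ℝ := 1 - min (η / 2) (1 / 2) with hcdef
  have h0 : 0 < min (η / 2) (1 / 2) := lt_min (by positivity) (by norm_num)
  have h1 : min (η / 2) (1 / 2) ≤ η / 2 := min_le_left _ _
  have h2 : min (η / 2) (1 / 2) ≤ 1 / 2 := min_le_right _ _
  have h3 := h (x := c) (by
    rw [Real.dist_eq, hcdef, abs_lt]; constructor <;> linarith)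
  simp only [one_smul] at h3
  rw [Metric.mem_thickening_iff]
  refine ⟨Φ (c • w), ⟨c • w, ?_, rfl⟩, by rwa [dist_comm]⟩
  simp only [dsc, Set.mem_ofPred_eq, Prod.smul_fst, Prod.smul_snd, smul_eq_mul]
  have h4 : c < 1 := by linarith
  have h5 : 0 < c := by linarith
  have h6 : c ^ 2 < 1 := by nlinarith
  nlinarith [sq_nonneg c]

lemma bdd_disc (r : ℝ) : Bornology.IsBounded {w : ℝ × ℝ | w.1 ^ 2 + w.2 ^ 2 ≤ r} := by
  refine (Metric.isBounded_closedBall (x := (0 : ℝ × ℝ)) (r := r + 1)).subset ?_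
  intro w hw
  simp only [Set.mem_ofPred_eq] at hw
  rw [mem_closedBall_zero_iff, Prod.norm_def, Real.norm_eq_abs, Real.norm_eq_abs]
  refine max_le (abs_le.2 ⟨?_, ?_⟩) (abs_le.2 ⟨?_, ?_⟩) <;>
    nlinarith [sq_nonneg (w.1 - 1), sq_nonneg (w.1 + 1), sq_nonneg (w.2 - 1), sq_nonneg (w.2 + 1),
      sq_nonneg w.1, sq_nonneg w.2]

lemma ray (Φ : (ℝ × ℝ) ≃ₜ (ℝ × ℝ)) {s : ℝ} (hs : 0 < s) :
    ∃ ε : ℝ, 0 < ε ∧ ∀ z, z ∉ Metric.thickening s (Φ '' dsc) → ∃ γ : ℝ → ℝ × ℝ, Continuous γ ∧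
      γ 1 = z ∧ (∀ c, 1 ≤ c → ∀ y ∈ Φ '' dsc, ε ≤ dist (γ c) y) ∧
      ¬ Bornology.IsBounded (γ '' Set.Ici 1) := by
  have hqc : Continuous fun w : ℝ × ℝ => w.1 ^ 2 + w.2 ^ 2 := by fun_prop
  have hm : ∃ m : ℝ, 1 < m ∧ ∀ w, Φ w ∉ Metric.thickening s (Φ '' dsc) →
      m ≤ w.1 ^ 2 + w.2 ^ 2 := by
    set K : Set (ℝ × ℝ) := {w | w.1 ^ 2 + w.2 ^ 2 ≤ 2} ∩
      Φ ⁻¹' (Metric.thickening s (Φ '' dsc))ᶜ with hK
    have hKc : IsCompact K := by
      refine Metric.isCompact_of_isClosed_isBounded ?_ ((bdd_disc 2).subset Set.inter_subset_left)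
      exact (isClosed_le hqc continuous_const).inter
        (Metric.isOpen_thickening.isClosed_compl.preimage Φ.continuous)
    rcases K.eq_empty_or_nonempty with h0 | h0
    · refine ⟨2, by norm_num, fun w hw => ?_⟩
      by_contra hlt
      have : w ∈ K := ⟨(not_le.1 hlt).le, hw⟩
      rw [h0] at this
      exact this
    · obtain ⟨w0, hw0, hmin⟩ := hKc.exists_isMinOn h0 hqc.continuousOn
      have h1 : 1 < w0.1 ^ 2 + w0.2 ^ 2 := by
        by_contra hle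
        exact hw0.2 (closed_disc Φ hs (not_lt.1 hle))
      refine ⟨min (w0.1 ^ 2 + w0.2 ^ 2) 2, lt_min h1 (by norm_num), fun w hw => ?_⟩
      by_cases h2 : w.1 ^ 2 + w.2 ^ 2 ≤ 2
      · exact (min_le_left _ _).trans (hmin ⟨h2, hw⟩)
      · exact (min_le_right _ _).trans (not_le.1 h2).le
  obtain ⟨m, hm1, hm⟩ := hm
  have hL : IsCompact (Φ '' {w | w.1 ^ 2 + w.2 ^ 2 ≤ 1}) :=
    (Metric.isCompact_of_isClosed_isBounded (isClosed_le hqc continuous_const) (bdd_disc 1)).image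
      Φ.continuous
  have hC : IsClosed (Φ '' {w | m ≤ w.1 ^ 2 + w.2 ^ 2}) :=
    Φ.isClosedMap _ (isClosed_le continuous_const hqc)
  have hdis : Disjoint (Φ '' {w : ℝ × ℝ | w.1 ^ 2 + w.2 ^ 2 ≤ 1})
      (Φ '' {w | m ≤ w.1 ^ 2 + w.2 ^ 2}) := by
    rw [Set.disjoint_image_iff Φ.injective, Set.disjoint_left]
    intro w h1 h2
    simp only [Set.mem_ofPred_eq] at h1 h2
    linarith
  obtain ⟨ε, hε, hεd⟩ := hdis.exists_thickenings hL hC
  refine ⟨ε, hε, fun z hz => ?_⟩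
  set w : ℝ × ℝ := Φ.symm z with hw
  have hwz : Φ w = z := Φ.apply_symm_apply z
  have hwm : m ≤ w.1 ^ 2 + w.2 ^ 2 := hm w (by rwa [hwz])
  refine ⟨fun c => Φ (c • w), Φ.continuous.comp (continuous_id.smul continuous_const),
    by simpa using hwz, ?_, ?_⟩
  · intro c hc y hy
    by_contra hlt
    rw [not_le] at hlt
    obtain ⟨y0, hy0, rfl⟩ := hy
    have h1 : Φ y0 ∈ Φ '' {w | w.1 ^ 2 + w.2 ^ 2 ≤ 1} := by
      refine ⟨y0, ?_, rfl⟩
      have h0 : y0.1 ^ 2 + y0.2 ^ 2 < 1 := hy0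
      exact h0.le
    have h2 : Φ (c • w) ∈ Φ '' {w | m ≤ w.1 ^ 2 + w.2 ^ 2} := by
      refine ⟨c • w, ?_, rfl⟩
      simp only [Set.mem_ofPred_eq, Prod.smul_fst, Prod.smul_snd, smul_eq_mul]
      have h3 : 1 ≤ c ^ 2 := by nlinarith
      have h4 : (c * w.1) ^ 2 + (c * w.2) ^ 2 = c ^ 2 * (w.1 ^ 2 + w.2 ^ 2) := by ring
      rw [h4]
      nlinarith
    refine Set.disjoint_left.1 hεd (Metric.self_subset_thickening hε _ h1) ?_
    rw [Metric.mem_thickening_iff]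
    exact ⟨_, h2, by rwa [dist_comm] at hlt⟩
  · intro hb
    have h1 : Bornology.IsBounded (Φ.symm '' closure ((fun c : ℝ => Φ (c • w)) '' Set.Ici 1)) :=
      (hb.isCompact_closure.image Φ.symm.continuous).isBounded
    obtain ⟨R, hR⟩ := h1.exists_norm_le
    have hw0 : 0 < ‖w‖ := by
      rw [norm_pos_iff]
      rintro h0
      rw [h0] at hwm
      simp only [Prod.fst_zero, Prod.snd_zero] at hwm
      norm_num at hwm
      linarith
    set c : ℝ := max 1 ((R + 1) / ‖w‖) with hc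
    have hc1 : 1 ≤ c := le_max_left _ _
    have hc2 : (R + 1) / ‖w‖ ≤ c := le_max_right _ _
    have h2 := hR (c • w) ⟨Φ (c • w), subset_closure ⟨c, hc1, rfl⟩, Φ.symm_apply_apply _⟩
    rw [norm_smul, Real.norm_of_nonneg (by linarith)] at h2
    rw [div_le_iff₀ hw0] at hc2
    linarith

lemma mem_Vs {δ : ℝ} (hδ : 0 < δ) {D : Set (ℝ × ℝ)} (hb : Bornology.IsBounded D) {v : ℤ × ℤ}
    (h : Metric.closedBall (dp δ v) (2 * δ) ⊆ D) : v ∈ Vs δ D := by
  have hfin : {v : ℤ × ℤ | Metric.closedBall (dp δ v) (2 * δ) ⊆ D}.Finite := by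
    obtain ⟨R, hR⟩ := hb.exists_norm_le
    set M : ℤ := ⌈2 * R / δ⌉ with hM
    have hM' : 2 * R ≤ δ * M := by
      have := Int.le_ceil (2 * R / δ)
      rw [div_le_iff₀ hδ] at this
      linarith
    refine (Set.finite_Icc ((-M, -M) : ℤ × ℤ) (M, M)).subset ?_
    intro u hu
    have h1 := hR _ (hu (Metric.mem_closedBall_self (by positivity)))
    rw [Prod.norm_def, max_le_iff, Real.norm_eq_abs, Real.norm_eq_abs, abs_le, abs_le] at h1
    simp only [dp] at h1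
    obtain ⟨⟨h2, h3⟩, h4, h5⟩ := h1
    have h6 := s3
    have h7 : |δ * (u.2 : ℝ)| ≤ 2 * R := by
      have h8 : |δ * (√3 / 2 * (u.2 : ℝ))| ≤ R := abs_le.2 ⟨h4, h5⟩
      have h9 : δ * (√3 / 2 * (u.2 : ℝ)) = √3 / 2 * (δ * u.2) := by ring
      rw [h9, abs_mul, abs_of_pos (by positivity : (0 : ℝ) < √3 / 2)] at h8
      nlinarith [abs_nonneg (δ * (u.2 : ℝ))]
    rw [abs_le] at h7
    have k : ∀ a : ℤ, δ * (a : ℝ) ≤ 2 * R → a ≤ M := by
      intro a ha
      have : δ * (a : ℝ) ≤ δ * M := ha.trans hM'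
      exact_mod_cast le_of_mul_le_mul_left this hδ
    have k' : ∀ a : ℤ, -(2 * R) ≤ δ * (a : ℝ) → -M ≤ a := by
      intro a ha
      have : δ * ((-M : ℤ) : ℝ) ≤ δ * a := by push_cast; linarith
      exact_mod_cast le_of_mul_le_mul_left this hδ
    have e : δ * ((u.1 : ℝ) + u.2 / 2) = δ * u.1 + δ * u.2 / 2 := by ring
    rw [e] at h2 h3
    refine ⟨⟨k' _ ?_, k' _ ?_⟩, ⟨k _ ?_, k _ ?_⟩⟩ <;> linarith
  rw [Vs, dif_pos hfin, Set.Finite.mem_toFinset]
  exact h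

end OutI

open OutI in
theorem s_out : S_out := by
  intro D δ N p S hJ h D' hD' hb hcl
  obtain ⟨Φ, hΦ⟩ := hJ
  have hD : D = Φ '' dsc := hΦ
  have hDc : IsCompact (closure D) := by
    refine Bornology.IsBounded.isCompact_closure ?_
    exact hb.subset (subset_closure.trans hcl)
  obtain ⟨r, hr, hrD⟩ := hDc.exists_thickening_subset_open hD' hcl
  obtain ⟨ε, hε, hray⟩ := ray Φ (s := r / 2) (by positivity)
  have h1 := h.near (ε / 2) (by positivity)
  have h2 : ∀ᶠ n in atTop, δ n < min (ε / 12) (r / 8) :=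
    h.lim.eventually_lt_const (lt_min (by positivity) (by positivity))
  filter_upwards [h1, h2] with n h3 h4 v hv
  have hδ := h.pos n
  have h5 : δ n < ε / 12 := h4.trans_le (min_le_left _ _)
  have h6 : δ n < r / 8 := h4.trans_le (min_le_right _ _)
  simp only [inner, Finset.mem_filter] at hv
  by_cases hz : dp (δ n) v ∈ Metric.thickening (r / 2) (Φ '' dsc)
  · refine OutI.mem_Vs hδ hb ?_
    intro y hy
    refine hrD ?_
    rw [Metric.mem_closedBall] at hy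
    rw [← hD, Metric.mem_thickening_iff] at hz
    obtain ⟨x, hx, hxz⟩ := hz
    rw [Metric.mem_thickening_iff]
    refine ⟨x, subset_closure hx, ?_⟩
    have := dist_triangle y (dp (δ n) v) x
    linarith
  · exfalso
    obtain ⟨γ, hγ, hγ1, hγd, hub⟩ := hray _ hz
    have hfar : ∀ c, 1 ≤ c → ∀ i, 5 * δ n < dist (γ c) (dp (δ n) (p n i)) := by
      intro c hc i
      obtain ⟨y, hy, hyd⟩ := h3 i
      rw [hD] at hy
      have h7 := hγd c hc y hy
      have h8 := dist_triangle (γ c) (dp (δ n) (p n i)) y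
      rw [smul_pt] at hyd
      linarith
    refine outside (h.encl n) hδ hγ hfar hub ?_
    rw [hγ1, fl_dp hδ]
    refine start (h.encl n) ?_ hv.1
    intro x y hx hy i hi
    have h7 := near_fl hδ (z := γ 1) (v := (x, y)) (by rw [hγ1, fl_dp hδ]; exact hx)
      (by rw [hγ1, fl_dp hδ]; exact hy)
    have h8 := hfar 1 le_rfl i
    rw [hi] at h8
    linarith

end Vale.Agent.P153.F.Dom
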