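import Vale.Agent.P153.GFF.Interface
import Vale.Agent.P145.PT.Defs

/-!
Definitions for the scaling limit of the uniform Lipschitz heights on the triangular lattice in
bounded Jordan domains, with free boundary values `±1`: lattice polygons, the heights in the domain
enclosed by a polygon, and the rescaled height function.

Vertex `(i, j)` is the point `i (1, 0) + j (1/2, √3/2)`. The triangle `(v, false)` has the corners
`v, v + (1, 0), v + (0, 1)`; the triangle `(v, true)` has the corners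
`v + (1, 0), v + (0, 1), v + (1, 1)`.
-/

namespace Vale.Agent.P153.F.Dom

open Finset Filter Topology MeasureTheory ProbabilityTheory
open Vale.Agent.P153.GFF Vale.Agent.P145.PT

/-- A bounded Jordan domain: the image of the open unit disc under a homeomorphism of the plane
(by the theorem of Schoenflies these are exactly the interiors of Jordan curves). -/
def JordanDomain (D : Set (ℝ × ℝ)) : Prop :=
  ∃ Φ : (ℝ × ℝ) ≃ₜ (ℝ × ℝ), D = Φ '' {z | z.1 ^ 2 + z.2 ^ 2 < 1}

/-- A simple closed lattice polygon: a closed path `p 0, p 1, …, p (n - 1), p 0` of nearest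
neighbours of the triangular lattice without repeated vertices. -/
def IsPolygon {n : ℕ} (p : ZMod n → ℤ × ℤ) : Prop :=
  2 < n ∧ Function.Injective p ∧ ∀ i, GFF.Adj (p i) (p (i + 1))

/-- The edge between the lattice points `a` and `b` is an edge of the polygon `p`. -/
def IsEdge {n : ℕ} (p : ZMod n → ℤ × ℤ) (a b : ℤ × ℤ) : Prop :=
  ∃ i, (p i = a ∧ p (i + 1) = b) ∨ (p i = b ∧ p (i + 1) = a)

/-- The finite set `S` of triangles is the set of the triangles enclosed by the polygon `p`: the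
edges of `p` are exactly the edges of the lattice with exactly one of their two sides in `S`. -/
def Encloses {n : ℕ} (p : ZMod n → ℤ × ℤ) (S : Finset ((ℤ × ℤ) × Bool)) : Prop :=
  (∀ v : ℤ × ℤ, IsEdge p v (v + (1, 0)) ↔ ¬ ((v, false) ∈ S ↔ (v - (0, 1), true) ∈ S)) ∧
  (∀ v : ℤ × ℤ, IsEdge p v (v + (0, 1)) ↔ ¬ ((v, false) ∈ S ↔ (v - (1, 0), true) ∈ S)) ∧
  (∀ v : ℤ × ℤ, IsEdge p (v + (1, 0)) (v + (0, 1)) ↔ ¬ ((v, false) ∈ S ↔ (v, true) ∈ S))

/-- The corners of a triangle. -/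
def corners (t : (ℤ × ℤ) × Bool) : Finset (ℤ × ℤ) :=
  if t.2 then {t.1 + (1, 0), t.1 + (0, 1), t.1 + (1, 1)}
  else {t.1, t.1 + (1, 0), t.1 + (0, 1)}

/-- The vertices of the domain: the corners of the enclosed triangles. -/
def verts (S : Finset ((ℤ × ℤ) × Bool)) : Finset (ℤ × ℤ) := S.biUnion corners

/-- The heights of the domain enclosed by `p`: odd, with steps `0` or `±2` between adjacent
vertices, with values `±1` on the polygon (and the dummy value `0` off the domain). -/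
def Heights {n : ℕ} (p : ZMod n → ℤ × ℤ) (S : Finset ((ℤ × ℤ) × Bool)) : Set (ℤ × ℤ → ℤ) :=
  {h | (∀ v ∈ verts S, Odd (h v)) ∧ (∀ i, h (p i) = 1 ∨ h (p i) = -1) ∧
    (∀ v ∈ verts S, ∀ w ∈ verts S, GFF.Adj v w → |h v - h w| = 0 ∨ |h v - h w| = 2) ∧
    ∀ v, v ∉ verts S → h v = 0}

/-- The uniform distribution on the heights. -/
noncomputable def law {n : ℕ} (p : ZMod n → ℤ × ℤ) (S : Finset ((ℤ × ℤ) × Bool)) :
    Measure (ℤ × ℤ → ℤ) :=
  ((Heights p S).ncard : ENNReal)⁻¹ • ∑ᶠ h ∈ Heights p S, Measure.dirac h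

/-- The point of the plane. -/
noncomputable def pt (v : ℤ × ℤ) : ℝ × ℝ := (v.1 + v.2 / 2, √3 / 2 * v.2)

/-- The closed domain `D_δ`: the union of the enclosed triangles of the lattice of mesh `δ`. -/
noncomputable def region (δ : ℝ) (S : Finset ((ℤ × ℤ) × Bool)) : Set (ℝ × ℝ) :=
  {z | ∃ t ∈ S, z ∈ convexHull ℝ ((fun v => δ • pt v) '' (corners t : Set (ℤ × ℤ)))}

open Classical in
/-- `h_δ(φ) = ∫ h_δ(z) φ(z) dz`, where `h_δ` is affine on each triangle of `D_δ` and is extended by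
`0` outside `D_δ`. -/
noncomputable def fld (S : Finset ((ℤ × ℤ) × Bool)) (δ : ℝ) (φ : ℝ × ℝ → ℝ)
    (h : ℤ × ℤ → ℤ) : ℝ :=
  ∫ z : ℝ × ℝ, (if z ∈ region δ S then interp h (z.1 / δ, z.2 / δ) else 0) * φ z

/-- `⟨φ, (-Δ_D)⁻¹ ψ⟩`, by polarisation of the quadratic form `PT.V`. -/
noncomputable def dirCov (D : Set (ℝ × ℝ)) (φ ψ : ℝ × ℝ → ℝ) : ℝ :=
  (V D (fun z => φ z + ψ z) - V D (fun z => φ z - ψ z)) / 4

/-- Lattice polygons `p n` of mesh `δ n → 0` approximating the domain `D`: the vertices of the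
polygons are eventually within any given distance of `D`, and every compact subset of `D` is
eventually enclosed. (Both follow from the uniform convergence of the boundary curves.) -/
structure Approx (D : Set (ℝ × ℝ)) (δ : ℕ → ℝ) (N : ℕ → ℕ) (p : ∀ n, ZMod (N n) → ℤ × ℤ)
    (S : ℕ → Finset ((ℤ × ℤ) × Bool)) : Prop where
  pos : ∀ n, 0 < δ n
  lim : Tendsto δ atTop (𝓝 0)
  poly : ∀ n, IsPolygon (p n)
  encl : ∀ n, Encloses (p n) (S n)
  near : ∀ ε > 0, ∀ᶠ n in atTop, ∀ i, ∃ z ∈ D, dist (δ n • pt (p n i)) z < ε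
  cpt : ∀ K ⊆ D, IsCompact K → ∀ᶠ n in atTop, K ⊆ region (δ n) (S n)

/-- Convergence in law of `(h_δ(φ_j))_j` to the centred Gaussian vector whose covariance is `κ`
times that of the Dirichlet Gaussian free field of `D`. -/
def Conv (κ : ℝ) (D : Set (ℝ × ℝ)) : Prop :=
  ∀ (δ : ℕ → ℝ) (N : ℕ → ℕ) (p : ∀ n, ZMod (N n) → ℤ × ℤ) (S : ℕ → Finset ((ℤ × ℤ) × Bool)),
    Approx D δ N p S →
    ∃ _ : ∀ n, IsProbabilityMeasure (law (p n) (S n)),
      ∀ (k : ℕ) (φ : Fin k → ℝ × ℝ → ℝ), (∀ j, TestOn D (φ j)) →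
        (Matrix.of (fun i j => κ * dirCov D (φ i) (φ j))).PosSemidef ∧
        TendstoInDistribution (fun (n : ℕ) (h : ℤ × ℤ → ℤ) =>
          (WithLp.toLp 2 (fun j => fld (S n) (δ n) (φ j) h) : EuclideanSpace ℝ (Fin k)))
          atTop (id : EuclideanSpace ℝ (Fin k) → EuclideanSpace ℝ (Fin k))
          (fun n => law (p n) (S n))
          (multivariateGaussian 0 (Matrix.of (fun i j => κ * dirCov D (φ i) (φ j))))

end Vale.Agent.P153.F.Dom
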