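import Vale.Agent.P153.F.Dom.Defs
import Vale.Agent.P153.F.Top.Stmt

/-!
P153-F: the leaves between the polygons of the final statement and the lattice domains `Vs δ D`.
-/

namespace Vale.Agent.P153.F.Dom

open Finset Filter Topology MeasureTheory
open Vale.Agent.P153.F.Top Vale.Agent.P145.PT

open Classical in
/-- The inner vertices of the domain enclosed by `p`. -/
noncomputable def inner {n : ℕ} (p : ZMod n → ℤ × ℤ) (S : Finset ((ℤ × ℤ) × Bool)) :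
    Finset (ℤ × ℤ) := (verts S).filter fun v => ∀ i, p i ≠ v

/-- Leaf D1: the law is a probability measure, and the heights at the inner vertices have the law
of `ze`. -/
def S_law : Prop := ∀ {n : ℕ} (p : ZMod n → ℤ × ℤ) (S : Finset ((ℤ × ℤ) × Bool)),
  IsPolygon p → Encloses p S → (Heights p S).Finite ∧ (Heights p S).Nonempty ∧
    IsProbabilityMeasure (law p S) ∧ (∀ G : (ℤ × ℤ → ℤ) → ℝ, Integrable G (law p S)) ∧
    ∀ A : Om → ℝ, ∫ h, A (vh (inner p S) h) ∂(law p S) = ze (inner p S) A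

/-- Leaf D2: inner inclusion. -/
def S_in : Prop := ∀ (D : Set (ℝ × ℝ)) (δ : ℕ → ℝ) (N : ℕ → ℕ) (p : ∀ n, ZMod (N n) → ℤ × ℤ)
  (S : ℕ → Finset ((ℤ × ℤ) × Bool)), Approx D δ N p S → ∀ D' : Set (ℝ × ℝ),
    Bornology.IsBounded D' → closure D' ⊆ D → ∀ᶠ n in atTop, Vs (δ n) D' ⊆ inner (p n) (S n)

/-- Leaf D3: outer inclusion. -/
def S_out : Prop := ∀ (D : Set (ℝ × ℝ)) (δ : ℕ → ℝ) (N : ℕ → ℕ) (p : ∀ n, ZMod (N n) → ℤ × ℤ)
  (S : ℕ → Finset ((ℤ × ℤ) × Bool)), JordanDomain D → Approx D δ N p S → ∀ D' : Set (ℝ × ℝ),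
    IsOpen D' → Bornology.IsBounded D' → closure D ⊆ D' → ∀ᶠ n in atTop,
      inner (p n) (S n) ⊆ Vs (δ n) D'

/-- Leaf D4: the field `fld` is the sum of the heights of the inner vertices with weights close to
`√3/2 δ² φ(δ v)`: for every test function there are weights `w n v`, vanishing off the inner
vertices and off a fixed compact subset of `D`, with error `O(δ³)`. -/
def S_fld : Prop := ∀ (D : Set (ℝ × ℝ)), IsOpen D → ∀ (δ : ℕ → ℝ) (N : ℕ → ℕ) (p : ∀ n, ZMod (N n) → ℤ × ℤ)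
  (S : ℕ → Finset ((ℤ × ℤ) × Bool)), Approx D δ N p S → ∀ φ : ℝ × ℝ → ℝ, TestOn D φ →
    ∃ (C : ℝ) (K : Set (ℝ × ℝ)) (w : ℕ → ℤ × ℤ → ℝ), IsCompact K ∧ K ⊆ D ∧ ∀ᶠ n in atTop,
      (∀ v, w n v ≠ 0 → v ∈ inner (p n) (S n) ∧ dp (δ n) v ∈ K) ∧
      (∀ v, |w n v - δ n ^ 2 * tl φ (δ n * v.1, δ n * v.2)| ≤ C * δ n ^ 3) ∧
      (∀ v, φ (dp (δ n) v) ≠ 0 → v ∈ inner (p n) (S n)) ∧
      ∀ h : ℤ × ℤ → ℤ, fld (S n) (δ n) φ h = ∑ v ∈ inner (p n) (S n), w n v * (h v : ℝ)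

end Vale.Agent.P153.F.Dom
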